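import Vale.Agent.P234.Defs

/-! Closed geodesics and involutions. -/

namespace Vale.Agent.P216

open Vale.Agent.P255 Set

variable {E M : Type*} [NormedAddCommGroup E] [NormedSpace ℝ E] [TopologicalSpace M]
  [ChartedSpace E M] (g : Metric E M)

/-- A closed geodesic: a nonconstant periodic geodesic defined on the whole line. -/
def ClosedGeo (γ : ℝ → M) : Prop :=
  g.IsGeodesic γ univ ∧ (∃ s t, γ s ≠ γ t) ∧ ∃ τ > 0, ∀ t, γ (t + τ) = γ t

/-- Infinitely many geometrically distinct closed geodesics: infinitely many different images. -/
def InfMany : Prop := {T : Set M | ∃ γ, ClosedGeo g γ ∧ T = range γ}.Infinite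

/-- The group element `a` acts on `X` as an involution different from the identity. -/
def Invol {G : Type*} [Group G] (X : Type*) [MulAction G X] (a : G) : Prop :=
  (∀ x : X, a • a • x = x) ∧ ∃ x : X, a • x ≠ x

end Vale.Agent.P216
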