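import Vale.Agent.P216.SecB
import Vale.Agent.P216.Free
import Vale.Agent.P216.Tra
import Vale.Agent.P216.Defs

/-! P216 Grp (TASK, helper names start with grp_).
stab: a • γ is again CG.  G acts on Set X (open Pointwise); the orbit of range γ lies in the finite set, so the stabilizer H has finite
index (MulAction.index_stabilizer, Set.ncard_ne_zero or MulAction.orbitEquivQuotientStabilizer), so has H.normalCore; write a = b ^ m with
m the index of the core (Subgroup.pow_index_mem).  shift: a = b ^ 2, transl for b, applied twice.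
abs_main: by contradiction.  Case 1: cg_ref, shift, not_even.  Cases 2, 3: if the involution in question has a fixed point use case 1;
otherwise cg_free gives γ.  Case 2: per_half gives a fixed point γ 0 of σ, τ or σ τ, so case 1 applies to it.  Case 3: a, b act on γ by
translations (a⁻¹ by the opposite one), so the commutator fixes γ 0. -/

open Set Filter Topology

noncomputable section

namespace Vale.Agent.P216

variable {X : Type} [MetricSpace X] {G : Type} [Group G] [MulAction G X]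

theorem grp_cg {τ : X → X} (hτ : Isometry τ) {γ : ℝ → X} (hγ : CG γ) : CG fun t => τ (γ t) := by
  obtain ⟨⟨a, ha, δ, hδ, h⟩, T, hT, hp⟩ := hγ
  exact ⟨⟨a, ha, δ, hδ, fun s t hst => by rw [hτ.dist_eq, h s t hst]⟩, T, hT,
    fun t => by simp only [hp]⟩

open Pointwise in
theorem stab (hdiv : ∀ m : ℕ, 0 < m → ∀ a : G, ∃ b : G, b ^ m = a)
    (hiso : ∀ a : G, Isometry fun x : X => a • x)
    (hfin : {T : Set X | ∃ γ, CG γ ∧ T = range γ}.Finite) {γ : ℝ → X} (hγ : CG γ) (a : G) (t : ℝ) :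
    a • γ t ∈ range γ := by
  have h1 : (MulAction.orbit G (range γ)).Finite := by
    refine hfin.subset ?_
    rintro _ ⟨c, rfl⟩
    exact ⟨fun t => c • γ t, grp_cg (hiso c) hγ, smul_set_range c γ⟩
  have h2 : (MulAction.stabilizer G (range γ)).FiniteIndex := by
    refine ⟨?_⟩
    rw [MulAction.index_stabilizer]
    exact ((ncard_pos h1).2 (MulAction.nonempty_orbit _)).ne'
  obtain ⟨b, rfl⟩ := hdiv (MulAction.stabilizer G (range γ)).normalCore.index
    (Nat.pos_of_ne_zero Subgroup.FiniteIndex.index_ne_zero) a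
  have h3 := Subgroup.normalCore_le _
    (Subgroup.pow_index_mem (H := (MulAction.stabilizer G (range γ)).normalCore) b)
  rw [MulAction.mem_stabilizer_iff] at h3
  exact h3.subset (smul_mem_smul_set (mem_range_self t))

theorem shift (hNB : NB X) (hdiv : ∀ m : ℕ, 0 < m → ∀ a : G, ∃ b : G, b ^ m = a)
    (hiso : ∀ a : G, Isometry fun x : X => a • x)
    (hfin : {T : Set X | ∃ γ, CG γ ∧ T = range γ}.Finite) {γ : ℝ → X} (hγ : CG γ) (a : G) :
    ∃ b, ∀ t, a • γ t = γ (t + b) := by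
  obtain ⟨b, rfl⟩ := hdiv 2 two_pos a
  obtain ⟨c, h | h⟩ := transl hNB hγ (hiso b) (stab hdiv hiso hfin hγ b)
  · exact ⟨c + c, fun t => by rw [sq, mul_smul, h, h, add_assoc]⟩
  · refine ⟨0, fun t => ?_⟩
    rw [sq, mul_smul, h, h]
    exact congrArg γ (by ring)

theorem abs_main [CompactSpace X] [PathConnectedSpace X] (S : Seg X) (hNB : NB X) (hE : Ess X)
    (hdiv : ∀ m : ℕ, 0 < m → ∀ a : G, ∃ b : G, b ^ m = a)
    (hiso : ∀ a : G, Isometry fun x : X => a • x)
    (h : (∃ σ : G, Invol X σ ∧ ∃ p : X, σ • p = p) ∨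
      (∃ σ τ : G, Invol X σ ∧ Invol X τ ∧ Invol X (σ * τ)) ∨
      ∃ a b : G, Invol X (a * b * a⁻¹ * b⁻¹)) :
    {T : Set X | ∃ γ, CG γ ∧ T = range γ}.Infinite := by
  intro hfin
  have h1 : ∀ σ : G, Invol X σ → ∀ p : X, σ • p ≠ p := by
    rintro σ ⟨h2, q, hq⟩ p hp
    obtain ⟨γ, hγ, hr⟩ := cg_ref S hE (hiso σ) h2 hp hq
    obtain ⟨b, hb⟩ := shift hNB hdiv hiso hfin hγ σ
    exact not_even hγ b fun t => (hr t).trans (hb t)
  rcases h with ⟨σ, hσ, p, hp⟩ | ⟨σ, τ, hσ, hτ, hστ⟩ | ⟨a, b, hab⟩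
  · exact h1 σ hσ p hp
  · obtain ⟨γ, hγ⟩ := cg_free S (hiso σ) hσ.1 (h1 σ hσ)
    obtain ⟨b1, e1⟩ := shift hNB hdiv hiso hfin hγ σ
    obtain ⟨b2, e2⟩ := shift hNB hdiv hiso hfin hγ τ
    rcases per_half hγ (b1 := b1) (b2 := b2) (fun t => by rw [← e1, ← e1, hσ.1])
      (fun t => by rw [← e2, ← e2, hτ.1]) with e | e | e
    · exact h1 σ hσ (γ 0) (by rw [e1, zero_add, e])
    · exact h1 τ hτ (γ 0) (by rw [e2, zero_add, e])
    · exact h1 _ hστ (γ 0) (by rw [mul_smul, e2, e1, zero_add, add_comm, e])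
  · obtain ⟨γ, hγ⟩ := cg_free S (hiso _) hab.1 (h1 _ hab)
    obtain ⟨b1, e1⟩ := shift hNB hdiv hiso hfin hγ a
    obtain ⟨b2, e2⟩ := shift hNB hdiv hiso hfin hγ b
    have e3 : ∀ t, a⁻¹ • γ t = γ (t - b1) := fun t => by
      rw [inv_smul_eq_iff, e1, sub_add_cancel]
    have e4 : ∀ t, b⁻¹ • γ t = γ (t - b2) := fun t => by
      rw [inv_smul_eq_iff, e2, sub_add_cancel]
    refine h1 _ hab (γ 0) ?_
    rw [mul_smul, mul_smul, mul_smul, e4, e3, e2, e1]
    exact congrArg γ (by ring)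

end Vale.Agent.P216
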