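import Vale.Agent.P216.RiemA

/-! P216 RiemB (TASK, helper names start with riemb_).
exists_seg: ε from short, ρ = ε / 2; choose u x y with exp x u = y and Min (hopf_rinow), c x y = geo x (u x y); nrm u = rdist x y < ε gives
Uniq; dist_eq from Min.geo (both orders, rdist_comm); uniq from between.
lg_geo: geo2_of_locally.  At t0 take r > 0 with 2 r ≤ δ and a * (2 r) ≤ ρ (a ≥ 0 from the definition, or a * (2 r) = a distance); for
|t - t0| < r, uniq gives γ t = c (γ (t0 - r)) (γ (t0 + r)) ((t - t0 + r) / (2 r)); IsGeodesic.comp_affine.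
nb: both curves are geodesics on univ; IsGeodesic.unique with Filter.EventuallyEq.deriv_eq. -/

open Set Filter Topology
open scoped ContDiff Manifold

noncomputable section

namespace Vale.Agent.P216

open Vale.Agent.P255 Vale.Agent.P234

variable {E M : Type} [NormedAddCommGroup E] [NormedSpace ℝ E] [FiniteDimensional ℝ E]
  [TopologicalSpace M] [ChartedSpace E M] [IsManifold 𝓘(ℝ, E) ∞ M] [T2Space M] [CompactSpace M]
  [ConnectedSpace M] (g : Metric E M)

theorem exists_seg : ∃ S : @Seg M (rm g), ∀ x y, ∃ u, @Seg.c M (rm g) S x y = g.geo x u := by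
  obtain ⟨ε, hε, hs⟩ := short g
  choose u h1 h2 using hopf_rinow g
  have h3 : ∀ x y, nrm g x (u x y) = rdist g x y := fun x y => by
    rw [← h2 x y, h1]
  refine ⟨@Seg.mk M (rm g) (ε / 2) (half_pos hε) (fun x y => g.geo x (u x y))
    (fun x y _ => g.geo_zero x _) (fun x y _ => h1 x y) (fun x y _ s hs t ht => ?_)
    fun x y h t ht z a b => ?_, fun x y => ⟨u x y, rfl⟩⟩
  · change rdist g _ _ = _ * rdist g x y
    rw [← h3 x y]
    rcases le_total s t with h | h
    · rw [(h2 x y).geo hs.1 h ht.2, abs_sub_comm, abs_of_nonneg (sub_nonneg.2 h)]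
    · rw [rdist_comm, (h2 x y).geo ht.1 h hs.2, abs_of_nonneg (sub_nonneg.2 h)]
  · have h4 : rdist g x y ≤ ε / 2 := h
    refine between g (h2 x y) ((hs x).1 _ ((h3 x y).trans_lt (by linarith))).2.2 ht ?_ ?_
    · rw [h1]
      exact a
    · rw [h1]
      exact b

theorem lg_geo {γ : ℝ → M} {a : ℝ} (h : @LG M (rm g) γ a) : g.IsGeodesic γ univ := by
  obtain ⟨S, hS⟩ := exists_seg g
  letI := rm g
  obtain ⟨δ, hδ, h⟩ := h
  have hρ := S.pos
  refine g.geo2_of_locally fun t₀ _ => ?_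
  obtain ⟨r, hr, r1, r2⟩ : ∃ r > 0, 2 * r ≤ δ ∧ a * (2 * r) ≤ S.ρ := by
    refine ⟨min (δ / 2) (S.ρ / (2 * (|a| + 1))), lt_min (half_pos hδ) (by positivity),
      by linarith [min_le_left (δ / 2) (S.ρ / (2 * (|a| + 1)))], ?_⟩
    have h1 := (le_div_iff₀ (by positivity)).1 (min_le_right (δ / 2) (S.ρ / (2 * (|a| + 1))))
    have h2 : 0 < min (δ / 2) (S.ρ / (2 * (|a| + 1))) := lt_min (half_pos hδ) (by positivity)
    have h3 := mul_le_mul_of_nonneg_right (le_abs_self a) h2.le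
    linarith
  have hd : ∀ s t, t₀ - r ≤ s → s ≤ t → t ≤ t₀ + r → dist (γ s) (γ t) = a * (t - s) :=
    fun s t h1 h2 h3 => by
      have : |s - t| = t - s := by rw [abs_sub_comm, abs_of_nonneg (sub_nonneg.2 h2)]
      rw [h s t (by linarith), this]
  have e0 := hd _ _ le_rfl (by linarith) le_rfl
  rw [show t₀ + r - (t₀ - r) = 2 * r by ring] at e0
  obtain ⟨u, hu⟩ := hS (γ (t₀ - r)) (γ (t₀ + r))
  refine ⟨_, _, (g.geo_isGeodesic (γ (t₀ - r)) u).comp_affine isOpen_univ (1 / (2 * r))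
    ((r - t₀) / (2 * r)), univ_mem, ?_⟩
  filter_upwards [Icc_mem_nhds (sub_lt_self t₀ hr) (lt_add_of_pos_right t₀ hr)] with t ht
  have e1 : 1 / (2 * r) * t + (r - t₀) / (2 * r) = (t - (t₀ - r)) / (2 * r) := by ring
  rw [← hu, e1]
  refine S.uniq _ _ (e0.trans_le r2) _ ⟨div_nonneg (sub_nonneg.2 ht.1) (by positivity),
    (div_le_one (by positivity)).2 (by linarith [ht.2])⟩ _ (le_of_eq ?_) (le_of_eq ?_)
  · rw [e0, hd _ _ le_rfl ht.1 ht.2]
    field_simp
  · rw [e0, hd _ _ ht.1 ht.2 le_rfl]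
    field_simp
    ring

theorem nb : @NB M (rm g) := fun γ γ' a h h' t₀ he =>
  funext fun t => (lg_geo g h).unique (lg_geo g h') isOpen_univ isPreconnected_univ (mem_univ t₀)
    (chart_mem_atlas E (γ t₀)) (mem_chart_source E _) he.eq_of_nhds
    (he.fun_comp (chartAt E (γ t₀))).deriv_eq (mem_univ t)

end Vale.Agent.P216
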