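import Vale.Agent.P216.Grp
import Vale.Agent.P216.RiemB
import Vale.Agent.P216.EssF

/-! P216 Main: assembly. -/

open Set Filter Topology
open scoped ContDiff Manifold

noncomputable section

namespace Vale.Agent.P216

open Vale.Agent.P255 Vale.Agent.P234

variable {E M : Type} [NormedAddCommGroup E] [NormedSpace ℝ E] [FiniteDimensional ℝ E]
  [TopologicalSpace M] [ChartedSpace E M] [IsManifold 𝓘(ℝ, E) ∞ M] [T2Space M] [CompactSpace M]
  [ConnectedSpace M] (g : Metric E M)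

theorem main {G : Type} [Group G] [MulAction G M]
    (hdiv : ∀ m : ℕ, 0 < m → ∀ a : G, ∃ b : G, b ^ m = a)
    (hiso : ∀ (a : G) (x y : M), rdist g (a • x) (a • y) = rdist g x y)
    (h : (∃ σ : G, Invol M σ ∧ ∃ p : M, σ • p = p) ∨
      (∃ σ τ : G, Invol M σ ∧ Invol M τ ∧ Invol M (σ * τ)) ∨
      ∃ a b : G, Invol M (a * b * a⁻¹ * b⁻¹)) : InfMany g := by
  obtain ⟨d, ι, hι, hc⟩ := P265.L.exists_emb (E := E) (M := M)
  have hE : Ess M := ess_emb hι fun p => ⟨(hc p).choose⟩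
  have hP : PathConnectedSpace M := ⟨inferInstance, fun x y => by
    obtain ⟨γ, h1, rfl, rfl⟩ := exists_curve g x y
    exact ⟨⟨⟨fun t => γ t, h1.continuous.comp continuous_subtype_val⟩, rfl, rfl⟩⟩⟩
  obtain ⟨S, -⟩ := exists_seg g
  letI := rm g
  refine (abs_main S (nb g) hE hdiv (fun a => Isometry.of_dist_eq (hiso a)) h).mono ?_
  rintro _ ⟨γ, ⟨⟨a, ha, hl⟩, hp⟩, rfl⟩
  refine ⟨γ, ⟨lg_geo g hl, ?_, hp⟩, rfl⟩
  obtain ⟨δ, hδ, hl⟩ := hl
  refine ⟨δ, 0, fun e => ?_⟩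
  have := hl δ 0 (by rw [sub_zero, abs_of_pos hδ])
  rw [e, dist_self, sub_zero, abs_of_pos hδ] at this
  exact (mul_pos ha hδ).ne this

end Vale.Agent.P216
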