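import Vale.Agent.P234.HR
import Vale.Agent.P216.Basic

/-! P216 RiemA (TASK, helper names start with riema_).
rm_open: (→) the complement of s is compact; if it is nonempty the continuous function rdist g x is positive on it (eq_of_rdist,
rdist_nonneg, IsCompact.exists_isMinOn).  (←) continuous_rdist, rdist_self.
between: hopf_rinow at z gives V, W with exp z V = x, exp z W = y, Min; the triangle inequality turns the two bounds into equalities;
corner gives nrm W • V + nrm V • W = 0.  If d = rdist x y = 0 or t ∈ {0, 1} use eq_of_rdist.  Otherwise V = -t • U, W = (1 - t) • U with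
nrm U = d; the geodesic s ↦ geo z U (s - t) = geo x u' s with u' = vel E (geo z U) (-t) (geo_add, exp_smul), nrm u' = d (geo_speed or
nrm_vel_geo), exp x u' = y, so Min g x u' and Uniq gives u' = u; at s = t we get z. -/

open Set Filter Topology
open scoped ContDiff Manifold

noncomputable section

namespace Vale.Agent.P216

open Vale.Agent.P255 Vale.Agent.P234

variable {E M : Type} [NormedAddCommGroup E] [NormedSpace ℝ E] [FiniteDimensional ℝ E]
  [TopologicalSpace M] [ChartedSpace E M] [IsManifold 𝓘(ℝ, E) ∞ M] [T2Space M] [CompactSpace M]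
  [ConnectedSpace M] (g : Metric E M)

theorem rm_open (s : Set M) :
    IsOpen s ↔ ∀ x ∈ s, ∃ ε > 0, ∀ y, rdist g x y < ε → y ∈ s := by
  have hc : ∀ x : M, Continuous (rdist g x) := fun x =>
    (continuous_rdist g).comp (Continuous.prodMk_right x)
  constructor
  · intro hs x hx
    rcases (sᶜ).eq_empty_or_nonempty with h0 | h0
    · refine ⟨1, one_pos, fun y _ => ?_⟩
      by_contra hy
      exact (h0 ▸ (show y ∈ sᶜ from hy) : y ∈ (∅ : Set M))
    · obtain ⟨z, hz, hmin⟩ := hs.isClosed_compl.isCompact.exists_isMinOn h0 (hc x).continuousOn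
      refine ⟨rdist g x z, lt_of_le_of_ne (rdist_nonneg g x z) fun h => ?_, fun y hy => ?_⟩
      · rw [← eq_of_rdist g h.symm] at hz
        exact hz hx
      · by_contra hy'
        exact absurd (hmin (show y ∈ sᶜ from hy')) (not_le.2 hy)
  · intro h
    refine isOpen_iff_mem_nhds.2 fun x hx => ?_
    obtain ⟨ε, hε, h1⟩ := h x hx
    have h2 : ∀ᶠ y in 𝓝 x, rdist g x y < ε := (tendsto_rdist g x).eventually (gt_mem_nhds hε)
    exact h2.mono h1

/-- The Riemannian distance as a metric space structure with the given topology. -/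
@[reducible] def rm : MetricSpace M :=
  MetricSpace.ofDistTopology (rdist g) (rdist_self g) (rdist_comm g) (rdist_triangle g) (rm_open g)
    fun _ _ h => eq_of_rdist g h

theorem between {x z : M} {u : E} (hm : Min g x u) (hu : Uniq g x u) {t : ℝ} (ht : t ∈ Icc (0 : ℝ) 1)
    (h1 : rdist g x z ≤ t * rdist g x (g.exp x u))
    (h2 : rdist g z (g.exp x u) ≤ (1 - t) * rdist g x (g.exp x u)) : z = g.geo x u t := by
  set y := g.exp x u with hy
  set d := rdist g x y with hd
  have htri : d ≤ rdist g x z + rdist g z y := rdist_triangle g x z y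
  have e1 : rdist g x z = t * d := by linarith
  have e2 : rdist g z y = (1 - t) * d := by linarith
  rcases (rdist_nonneg g x y).eq_or_lt with h0 | h0
  · have hu0 : u = 0 := nrm_eq_zero g (hm.symm.trans h0.symm)
    have hxz : x = z := eq_of_rdist g (by rw [e1, hd, ← h0, mul_zero])
    rw [← g.exp_smul, hu0, smul_zero, g.exp_zero, hxz]
  rcases ht.2.eq_or_lt with ht1 | ht1
  · have hzy : z = y := eq_of_rdist g (by rw [e2, ht1, sub_self, zero_mul])
    rw [hzy, ht1]
    rfl
  rw [← hd] at h0
  have h1t : 0 < 1 - t := sub_pos.2 ht1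
  obtain ⟨V, hV1, hV2⟩ := hopf_rinow g z x
  obtain ⟨W, hW1, hW2⟩ := hopf_rinow g z y
  rw [P234.Min, hV1, rdist_comm, e1] at hV2
  rw [P234.Min, hW1, e2] at hW2
  have hc := corner g (m := z) (V := V) (W := W) (by rw [hV1, hW1, ← hV2, ← hW2, ← hd]; ring)
  rw [← hV2, ← hW2] at hc
  set l := t / (1 - t) with hl
  have hl0 : 0 ≤ l := div_nonneg ht.1 h1t.le
  have hVW : V = (-l) • W := by
    have h3 : ((1 - t) * d) • V = -((t * d) • W) := eq_neg_of_add_eq_zero_left hc
    have h4 : V = ((1 - t) * d)⁻¹ • ((1 - t) * d) • V := by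
      rw [smul_smul, inv_mul_cancel₀ (mul_pos h1t h0).ne', one_smul]
    have h5 : ((1 - t) * d)⁻¹ * (t * d) = l := by
      rw [hl]
      field_simp
    rw [h4, h3, smul_neg, smul_smul, h5, neg_smul]
  have hx : x = g.geo z W (-l) := by rw [← hV1, hVW, g.exp_smul]
  have hgeo : ∀ s, g.geo x ((1 + l) • vel E (g.geo z W) (-l)) s
      = g.geo z W (-l + (1 + l) * s) := by
    intro s
    rw [hx, geo_vel]
  have hexp : g.exp x ((1 + l) • vel E (g.geo z W) (-l)) = y := by
    rw [Metric.exp, hgeo, ← hW1, Metric.exp]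
    congr 1
    ring
  have hmin : Min g x ((1 + l) • vel E (g.geo z W) (-l)) := by
    have h6 : nrm g x (vel E (g.geo z W) (-l)) = (1 - t) * d := by
      rw [hx, nrm_vel_geo, ← hW2]
    rw [P234.Min, hexp, ← hd, nrm_smul, h6, abs_of_nonneg (by linarith), hl]
    field_simp
    ring
  have h7 : -l + (1 + l) * t = 0 := by
    rw [hl]
    field_simp
    ring
  rw [← hu _ hmin hexp, hgeo, h7, g.geo_zero]

end Vale.Agent.P216
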